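import Vale.Agent.P040.All.Final
import Vale.Agent.P040.All.Feat
import Vale.Agent.P040.All.Even
import Vale.Agent.P040.All.Tight

/-!
# The two-page crossing number of `K_{m,n}`

For all `m` and `n`: every two-page (book) drawing of `K_{m,n}` has at least
`⌊m/2⌋ ⌊(m-1)/2⌋ ⌊n/2⌋ ⌊(n-1)/2⌋` crossings, and some two-page drawing has exactly that many.
-/

namespace Vale.Agent.Results.P040.A000000000_TwoPageExact

open Vale.Agent.P040.Cut Vale.Agent.P040.All

private lemma lower (m n : ℕ) (D : TwoPageDrawing m n) :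
    (m / 2) * ((m - 1) / 2) * ((n / 2) * ((n - 1) / 2)) ≤ D.crossings := by
  refine all_of_odd (fun k n D => ?_) m n D
  have h := zar_of_feat (II k) (Phi k) (feat_cert k) D
  rwa [card_II] at h

/-- The minimum number of crossings of a two-page drawing of `K_{m,n}` is
`⌊m/2⌋ ⌊(m-1)/2⌋ ⌊n/2⌋ ⌊(n-1)/2⌋`. -/
theorem result (m n : ℕ) :
    (∀ D : TwoPageDrawing m n, (m / 2) * ((m - 1) / 2) * ((n / 2) * ((n - 1) / 2)) ≤ D.crossings) ∧
    (∃ D : TwoPageDrawing m n, D.crossings = (m / 2) * ((m - 1) / 2) * ((n / 2) * ((n - 1) / 2))) :=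
  ⟨lower m n, zarD m n, le_antisymm (zarD_crossings_le m n) (lower m n (zarD m n))⟩

end Vale.Agent.Results.P040.A000000000_TwoPageExact
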