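import Vale.Agent.P040.Mono.Count
import Vale.Agent.P040.Rect.Main
import Vale.Agent.P040.Rect.Tight

/-!
# The Zarankiewicz bound for x-monotone drawings, and the rectilinear crossing number of `K_{m,n}`

For all `m` and `n`, with `Z = ⌊m/2⌋ ⌊(m-1)/2⌋ ⌊n/2⌋ ⌊(n-1)/2⌋`:

* every x-monotone drawing of `K_{m,n}` in which two edges with a common end in the second class have
  no other common point has at least `Z` pairs of edges without common end that meet;
* every rectilinear (straight-line) drawing of `K_{m,n}` in general position has at least `Z`
  crossings;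
* some rectilinear drawing in general position has exactly `Z` crossings.
-/

namespace Vale.Agent.Results.P040.A00000000_MonotoneAndRectExact

open Vale.Agent.P040.Mono Vale.Agent.P040.Rect

/-- The Zarankiewicz lower bound for all x-monotone drawings (see `MonoDrawing`) and for all
rectilinear drawings (see `RectDrawing`) of `K_{m,n}`; in the second class it is attained. -/
theorem result (m n : ℕ) :
    (∀ D : MonoDrawing m n, (m / 2) * ((m - 1) / 2) * ((n / 2) * ((n - 1) / 2)) ≤ D.crossings) ∧
    (∀ D : RectDrawing m n, (m / 2) * ((m - 1) / 2) * ((n / 2) * ((n - 1) / 2)) ≤ D.crossings) ∧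
    (∃ D : RectDrawing m n, D.crossings = (m / 2) * ((m - 1) / 2) * ((n / 2) * ((n - 1) / 2))) :=
  ⟨mono_zarankiewicz m n, rect_all m n, exists_tight m n⟩

end Vale.Agent.Results.P040.A00000000_MonotoneAndRectExact
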