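import Vale.Agent.P040.Rect.Main
import Vale.Agent.P040.Rect.Tight

/-!
# The rectilinear crossing number of `K_{m,n}`

For all `m` and `n`: every rectilinear (straight-line) drawing of `K_{m,n}` in general position has at
least `⌊m/2⌋ ⌊(m-1)/2⌋ ⌊n/2⌋ ⌊(n-1)/2⌋` crossings, and some rectilinear drawing has exactly that many.
-/

namespace Vale.Agent.Results.P040.A0000000_RectilinearExact

open Vale.Agent.P040.Rect

/-- The minimum number of crossings of a rectilinear drawing of `K_{m,n}` is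
`⌊m/2⌋ ⌊(m-1)/2⌋ ⌊n/2⌋ ⌊(n-1)/2⌋`. -/
theorem result (m n : ℕ) :
    (∀ D : RectDrawing m n, (m / 2) * ((m - 1) / 2) * ((n / 2) * ((n - 1) / 2)) ≤ D.crossings) ∧
    (∃ D : RectDrawing m n, D.crossings = (m / 2) * ((m - 1) / 2) * ((n / 2) * ((n - 1) / 2))) :=
  ⟨rect_all m n, exists_tight m n⟩

end Vale.Agent.Results.P040.A0000000_RectilinearExact
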