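import Vale.Agent.P040.Mono.Count

/-!
# The Zarankiewicz bound for x-monotone drawings of `K_{m,n}`

Every x-monotone drawing of `K_{m,n}` in which two edges with a common end in the second class have no
other common point has at least `⌊m/2⌋ ⌊(m-1)/2⌋ ⌊n/2⌋ ⌊(n-1)/2⌋` pairs of edges without common end
that meet, for all `m` and `n`.  Straight-line drawings and two-page drawings are of this kind.
-/

namespace Vale.Agent.Results.P040.A000000_Monotone

open Vale.Agent.P040.Mono

/-- Every x-monotone drawing of `K_{m,n}` (see `MonoDrawing`) has at least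
`⌊m/2⌋ ⌊(m-1)/2⌋ ⌊n/2⌋ ⌊(n-1)/2⌋` crossing pairs of edges. -/
theorem result (m n : ℕ) (D : MonoDrawing m n) :
    (m / 2) * ((m - 1) / 2) * ((n / 2) * ((n - 1) / 2)) ≤ D.crossings :=
  mono_zarankiewicz m n D

end Vale.Agent.Results.P040.A000000_Monotone
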