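import Vale.Agent.P040.Rect.Main
import Vale.Agent.P040.All.Final
import Vale.Agent.P040.All.Feat
import Vale.Agent.P040.All.Even

/-!
# The Zarankiewicz bound for all rectilinear and for all two-page drawings of `K_{m,n}`
-/

namespace Vale.Agent.Results.P040.A000000_RectAndTwoPage

open Vale.Agent.P040.Rect Vale.Agent.P040.Cut Vale.Agent.P040.All

/-- For all `m`, `n`: every rectilinear drawing and every two-page drawing of `K_{m,n}` has at least
`⌊m/2⌋ ⌊(m-1)/2⌋ ⌊n/2⌋ ⌊(n-1)/2⌋` crossings. -/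
theorem result (m n : ℕ) :
    (∀ D : RectDrawing m n, (m / 2) * ((m - 1) / 2) * ((n / 2) * ((n - 1) / 2)) ≤ D.crossings) ∧
    (∀ D : TwoPageDrawing m n,
      (m / 2) * ((m - 1) / 2) * ((n / 2) * ((n - 1) / 2)) ≤ D.crossings) := by
  refine ⟨rect_all m n, fun D => ?_⟩
  refine Vale.Agent.P040.All.all_of_odd (fun k n D => ?_) m n D
  have h := zar_of_feat (II k) (Phi k) (feat_cert k) D
  rwa [card_II] at h

end Vale.Agent.Results.P040.A000000_RectAndTwoPage
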