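import Vale.Agent.P040.Rect.Main

/-!
# The Zarankiewicz bound for all rectilinear drawings of `K_{m,n}`

Every rectilinear (straight-line) drawing of `K_{m,n}` in general position has at least
`⌊m/2⌋ ⌊(m-1)/2⌋ ⌊n/2⌋ ⌊(n-1)/2⌋` crossings, for all `m` and `n`.
-/

namespace Vale.Agent.Results.P040.A000000_Rectilinear

open Vale.Agent.P040.Rect

/-- Every rectilinear drawing of `K_{m,n}` has at least `⌊m/2⌋ ⌊(m-1)/2⌋ ⌊n/2⌋ ⌊(n-1)/2⌋`
crossings. -/
theorem result (m n : ℕ) (D : RectDrawing m n) :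
    (m / 2) * ((m - 1) / 2) * ((n / 2) * ((n - 1) / 2)) ≤ D.crossings :=
  rect_all m n D

end Vale.Agent.Results.P040.A000000_Rectilinear
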