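import Vale.Agent.P040.Sph40.Final

/-!
# The Zarankiewicz bound for spherical geodesic drawings of `K_{m,n}` with the red vertices in an open
hemisphere

The vertices are points of the unit sphere in general position, the edges are the shortest great-circle
arcs.  If the `m` red vertices lie in an open hemisphere (the `n` blue vertices are arbitrary), the
drawing has at least `⌊m/2⌋ ⌊(m-1)/2⌋ ⌊n/2⌋ ⌊(n-1)/2⌋` crossings.
-/

namespace Vale.Agent.Results.P040.A00000_SphHemisphere

open Vale.Agent.P040.Sph40

/-- Every spherical geodesic drawing of `K_{m,n}` (see `SphDrawing`) whose red vertices lie in the open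
hemisphere with pole `u` has at least `⌊m/2⌋ ⌊(m-1)/2⌋ ⌊n/2⌋ ⌊(n-1)/2⌋` crossings. -/
theorem result (m n : ℕ) (D : SphDrawing m n) (u : ℝ × ℝ × ℝ)
    (hu : ∀ i, 0 < u.1 * (D.red i).1 + u.2.1 * (D.red i).2.1 + u.2.2 * (D.red i).2.2) :
    (m / 2) * ((m - 1) / 2) * ((n / 2) * ((n - 1) / 2)) ≤ D.crossings :=
  sph_hemi m n D u hu

end Vale.Agent.Results.P040.A00000_SphHemisphere
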