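import Vale.Agent.P040.Lab.Bridge
import Vale.Agent.P040.Sph40.HemiAll
import Vale.Agent.P040.Sph56.Pair

/-!
# The Zarankiewicz bound for all spherical geodesic drawings of `K_{m,n}`

Vertices: points of the unit sphere in general position; edges: shortest great-circle arcs.
Every such drawing of `K_{m,n}` has at least `⌊m/2⌋ ⌊(m-1)/2⌋ ⌊n/2⌋ ⌊(n-1)/2⌋` crossings.

Proof: crossings of the stars of two blue points `b`, `b'` are counted along the arc from `b` to `-b'`
(`Sph56`); a labelling of the reds with one great circle per red (`Lab`, rotation of a halving great
circle and a parity argument) gives `k²` antipodal two-colourings of the sphere such that two blue points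
agree in at most as many of them as their stars cross.
-/

namespace Vale.Agent.Results.P040.A00000_SphericalAll

open Vale.Agent.P040.Sph40

/-- The Zarankiewicz lower bound for all spherical geodesic drawings (see `SphDrawing`). -/
theorem result (m n : ℕ) (D : SphDrawing m n) :
    (m / 2) * ((m - 1) / 2) * ((n / 2) * ((n - 1) / 2)) ≤ D.crossings :=
  sph_all_of (fun _ _ _ _ _ _ hL hb hb' hp => Vale.Agent.P040.Sph56.pair_ineq hL hb hb' hp)
    (fun k v hgen => Vale.Agent.P040.Lab.hasLab k v hgen) m n D

end Vale.Agent.Results.P040.A00000_SphericalAll
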