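import Vale.Agent.P040.All.Final
import Vale.Agent.P040.All.Feat
import Vale.Agent.P040.All.Even

/-!
# The Zarankiewicz bound for all two-page drawings of `K_{m,n}`

Every two-page (book) drawing of `K_{m,n}` has at least
`⌊m/2⌋ ⌊(m-1)/2⌋ ⌊n/2⌋ ⌊(n-1)/2⌋` crossings, for all `m` and `n`.
For odd `m = 2k+1` the bound comes from an explicit cut certificate with `k^2` two-valued features
(`All.feat_cert`), for even `m` from the odd case by deleting a vertex and counting.
-/

namespace Vale.Agent.Results.P040.A0000_TwoPageAll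

open Vale.Agent.P040.Cut Vale.Agent.P040.All

/-- Every two-page drawing of `K_{m,n}` has at least `⌊m/2⌋ ⌊(m-1)/2⌋ ⌊n/2⌋ ⌊(n-1)/2⌋` crossings. -/
theorem result (m n : ℕ) (D : TwoPageDrawing m n) :
    (m / 2) * ((m - 1) / 2) * ((n / 2) * ((n - 1) / 2)) ≤ D.crossings := by
  refine all_of_odd (fun k n D => ?_) m n D
  have h := zar_of_feat (II k) (Phi k) (feat_cert k) D
  rwa [card_II] at h

end Vale.Agent.Results.P040.A0000_TwoPageAll
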