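import Vale.Agent.Results.P040.A0000_TwoPageAll

namespace Vale.Agent.Results.P040.A0000_TwoPageAllPlain

open Vale.Agent.P040.Cut

/-- The Zarankiewicz bound for all two-page drawings of `K_{m,n}`, written out without auxiliary
definitions.  The vertices `i` of the first class sit at the points `a i` of the spine (the real
line), the vertices `j` of the second class at the points `b j`; all these points are distinct and
in arbitrary order.  The edge `i j` is drawn in the page `page i j`.  Two edges cross when they lie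
in the same page and exactly one end of the second lies strictly between the ends of the first,
the other one lying strictly outside.  Every unordered pair of crossing edges is counted once (the
edge whose end in the first class is further left is listed first). -/
theorem result (m n : ℕ) (a : Fin m → ℝ) (b : Fin n → ℝ)
    (ha : Function.Injective a) (hb : Function.Injective b) (hab : ∀ i j, a i ≠ b j)
    (page : Fin m → Fin n → Bool) :
    (m / 2) * ((m - 1) / 2) * ((n / 2) * ((n - 1) / 2)) ≤
      Set.ncard {p : (Fin m × Fin n) × (Fin m × Fin n) |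
        a p.1.1 < a p.2.1 ∧ page p.1.1 p.1.2 = page p.2.1 p.2.2 ∧
        (((min (a p.1.1) (b p.1.2) < a p.2.1 ∧ a p.2.1 < max (a p.1.1) (b p.1.2)) ∧
            (b p.2.2 < min (a p.1.1) (b p.1.2) ∨ max (a p.1.1) (b p.1.2) < b p.2.2)) ∨
          ((min (a p.1.1) (b p.1.2) < b p.2.2 ∧ b p.2.2 < max (a p.1.1) (b p.1.2)) ∧
            (a p.2.1 < min (a p.1.1) (b p.1.2) ∨ max (a p.1.1) (b p.1.2) < a p.2.1)))} := by
  have hσ : StrictMono (a ∘ Tuple.sort a) :=
    (Tuple.monotone_sort a).strictMono_of_injective (ha.comp (Tuple.sort a).injective)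
  have hτ : StrictMono (b ∘ Tuple.sort b) :=
    (Tuple.monotone_sort b).strictMono_of_injective (hb.comp (Tuple.sort b).injective)
  have h := Vale.Agent.Results.P040.A0000_TwoPageAll.result m n
    ⟨a ∘ Tuple.sort a, b ∘ Tuple.sort b, hσ, hτ, fun i j => hab _ _,
      fun i j => page (Tuple.sort a i) (Tuple.sort b j)⟩
  refine h.trans ?_
  have hinj : Function.Injective
      (fun p : (Fin m × Fin n) × (Fin m × Fin n) =>
        (((Tuple.sort a p.1.1, Tuple.sort b p.1.2), (Tuple.sort a p.2.1, Tuple.sort b p.2.2)) :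
          (Fin m × Fin n) × (Fin m × Fin n))) := by
    rintro ⟨⟨p1, p2⟩, ⟨p3, p4⟩⟩ ⟨⟨q1, q2⟩, ⟨q3, q4⟩⟩ hpq
    simp only [Prod.mk.injEq, EmbeddingLike.apply_eq_iff_eq] at hpq
    obtain ⟨⟨h1, h2⟩, h3, h4⟩ := hpq
    subst h1 h2 h3 h4
    rfl
  unfold TwoPageDrawing.crossings
  rw [← Set.ncard_image_of_injective _ hinj]
  apply Set.ncard_le_ncard _ (Set.toFinite _)
  rintro _ ⟨p, ⟨hp1, hp2, hp3⟩, rfl⟩
  exact ⟨hσ hp1, hp2, hp3⟩

end Vale.Agent.Results.P040.A0000_TwoPageAllPlain
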