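import Vale.Agent.P040.Cut.Count
import Vale.Agent.P040.Cut.Del
import Vale.Agent.P040.Cut.Tab3
import Vale.Agent.P040.Cut.Tab5
import Vale.Agent.P040.Cut.Tab7
import Vale.Agent.P040.Cut.Tab9

/-!
# The Zarankiewicz bound for all two-page drawings of `K_{m,n}` with `min m n ≤ 10`

For odd `m ≤ 9` the bound comes from a cut certificate (see `Vale.Agent.P040.Cut.Comb`), for even `m`
from the odd case by deleting a vertex and counting.
-/

namespace Vale.Agent.Results.P040.A00_TwoPageUpToTen

open Vale.Agent.P040.Cut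

private lemma aux (m n : ℕ) (h : m ≤ 10) (D : TwoPageDrawing m n) :
    (m / 2) * ((m - 1) / 2) * ((n / 2) * ((n - 1) / 2)) ≤ D.crossings := by
  interval_cases m
  · simp
  · simp
  · simp
  · exact zar_of_cert 1 F3 isCert3 D
  · have := del_bound (m := 3) _ (zar_of_cert 1 F3 isCert3) D
    norm_num at this ⊢
    omega
  · exact zar_of_cert 4 F5 isCert5 D
  · have := del_bound (m := 5) _ (zar_of_cert 4 F5 isCert5) D
    norm_num at this ⊢
    omega
  · exact zar_of_cert 9 F7 isCert7 D
  · have := del_bound (m := 7) _ (zar_of_cert 9 F7 isCert7) D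
    norm_num at this ⊢
    omega
  · exact zar_of_cert 16 F9 isCert9 D
  · have := del_bound (m := 9) _ (zar_of_cert 16 F9 isCert9) D
    norm_num at this ⊢
    omega

/-- Every two-page drawing of `K_{m,n}` with `min m n ≤ 10` has at least
`⌊m/2⌋ ⌊(m-1)/2⌋ ⌊n/2⌋ ⌊(n-1)/2⌋` crossings. -/
theorem result (m n : ℕ) (h : min m n ≤ 10) (D : TwoPageDrawing m n) :
    (m / 2) * ((m - 1) / 2) * ((n / 2) * ((n - 1) / 2)) ≤ D.crossings := by
  rcases min_le_iff.mp h with h | h
  · exact aux m n h D
  · have := aux n m h D.swap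
    rw [crossings_swap] at this
    calc _ = (n / 2) * ((n - 1) / 2) * ((m / 2) * ((m - 1) / 2)) := by ring
      _ ≤ _ := this

end Vale.Agent.Results.P040.A00_TwoPageUpToTen
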