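import Vale.Agent.P040.Rect

namespace Vale.Agent.Results.P040.A0_SeparatedGeneral

open Finset Vale.Agent.P040

/-- A two-page (book) drawing of the complete bipartite graph `K_{m,n}`: all vertices lie on the
spine (the real line), at pairwise distinct points; the vertices of each class are labelled in
their order along the spine; every edge is drawn in one of the two pages (half-planes). -/
structure TwoPageDrawing (m n : ℕ) where
  posA : Fin m → ℝ
  posB : Fin n → ℝ
  monoA : StrictMono posA
  monoB : StrictMono posB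
  distinct : ∀ i j, posA i ≠ posB j
  page : Fin m → Fin n → Bool

/-- `z` lies strictly between `x` and `y`. -/
def Inside (x y z : ℝ) : Prop := min x y < z ∧ z < max x y

/-- `z` lies strictly outside the segment with ends `x` and `y`. -/
def Outside (x y z : ℝ) : Prop := z < min x y ∨ max x y < z

/-- The pairs `{x,y}` and `{z,w}` of points of the spine alternate. -/
def Alternate (x y z w : ℝ) : Prop :=
  (Inside x y z ∧ Outside x y w) ∨ (Inside x y w ∧ Outside x y z)

/-- Two edges cross: they lie in the same page and their ends alternate along the spine. -/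
def TwoPageDrawing.Cross {m n : ℕ} (D : TwoPageDrawing m n) (e f : Fin m × Fin n) : Prop :=
  D.page e.1 e.2 = D.page f.1 f.2 ∧
    Alternate (D.posA e.1) (D.posB e.2) (D.posA f.1) (D.posB f.2)

/-- The number of crossings: the number of unordered pairs of crossing edges (each such pair is
listed once, the edge with the smaller end in the first class coming first). -/
noncomputable def TwoPageDrawing.crossings {m n : ℕ} (D : TwoPageDrawing m n) : ℕ :=
  Set.ncard {p : (Fin m × Fin n) × (Fin m × Fin n) | p.1.1 < p.2.1 ∧ D.Cross p.1 p.2}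

/-- The two classes are separated on the spine: one class lies entirely to the left of the
other. -/
def TwoPageDrawing.Separated {m n : ℕ} (D : TwoPageDrawing m n) : Prop :=
  (∀ i j, D.posA i < D.posB j) ∨ (∀ i j, D.posB j < D.posA i)

lemma cross_iff {m n : ℕ} (D : TwoPageDrawing m n) (hD : D.Separated)
    (a c : Fin m) (b d : Fin n) (hac : a < c) :
    D.Cross (a, b) (c, d) ↔ b < d ∧ D.page a b = D.page c d := by
  have h1 : D.posA a < D.posA c := D.monoA hac
  rcases hD with hD | hD
  · have h2 : D.posA c < D.posB b := hD c b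
    have h3 : D.posA a < D.posB b := hD a b
    have h4 : D.posA a < D.posB d := hD a d
    unfold TwoPageDrawing.Cross Alternate Inside Outside
    simp only [min_eq_left h3.le, max_eq_right h3.le]
    constructor
    · rintro ⟨hp, h⟩
      refine ⟨?_, hp⟩
      rcases h with ⟨_, h | h⟩ | ⟨_, h | h⟩
      · linarith
      · exact D.monoB.lt_iff_lt.mp h
      · linarith
      · linarith
    · rintro ⟨hbd, hp⟩
      exact ⟨hp, Or.inl ⟨⟨h1, h2⟩, Or.inr (D.monoB hbd)⟩⟩
  · have h3 : D.posB b < D.posA a := hD a b
    have h4 : D.posB d < D.posA a := hD a d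
    unfold TwoPageDrawing.Cross Alternate Inside Outside
    simp only [min_eq_right h3.le, max_eq_left h3.le]
    constructor
    · rintro ⟨hp, h⟩
      refine ⟨?_, hp⟩
      rcases h with ⟨⟨_, h⟩, _⟩ | ⟨⟨h, _⟩, _⟩
      · linarith
      · exact D.monoB.lt_iff_lt.mp h
    · rintro ⟨hbd, hp⟩
      exact ⟨hp, Or.inr ⟨⟨D.monoB hbd, h4⟩, Or.inr h1⟩⟩

lemma crossings_eq {m n : ℕ} (D : TwoPageDrawing m n) (hD : D.Separated) :
    D.crossings = (monoPairs D.page).card := by
  unfold TwoPageDrawing.crossings
  rw [← Set.ncard_coe_finset]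
  congr 1
  ext ⟨⟨a, b⟩, ⟨c, d⟩⟩
  simp only [Set.mem_ofPred_eq, monoPairs, coe_filter, mem_univ, true_and]
  constructor
  · rintro ⟨h1, h2⟩
    exact ⟨h1, (cross_iff D hD a c b d h1).mp h2⟩
  · rintro ⟨h1, h2⟩
    exact ⟨h1, (cross_iff D hD a c b d h1).mpr h2⟩

/-- a separated drawing with prescribed pages -/
noncomputable def mkSep (n : ℕ) (σ : Fin n → Fin n → Bool) : TwoPageDrawing n n where
  posA := fun i => (i.val : ℝ)
  posB := fun j => (n : ℝ) + j.val
  monoA := fun i j h => by
    show (i.val : ℝ) < j.val
    exact_mod_cast h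
  monoB := fun i j h => by
    have : (i.val : ℝ) < j.val := by exact_mod_cast h
    show (n : ℝ) + i.val < (n : ℝ) + j.val
    linarith
  distinct := fun i j => by
    have h1 : (i.val : ℝ) < n := by exact_mod_cast i.isLt
    have h2 : (0 : ℝ) ≤ j.val := by positivity
    intro h
    linarith
  page := σ

lemma mkSep_sep (n : ℕ) (σ : Fin n → Fin n → Bool) : (mkSep n σ).Separated := by
  left
  intro i j
  have h1 : (i.val : ℝ) < n := by exact_mod_cast i.isLt
  have h2 : (0 : ℝ) ≤ j.val := by positivity
  show (i.val : ℝ) < (n : ℝ) + j.val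
  linarith

/-- Two-page drawings of `K_{m,n}` with the two classes separated on the spine: the
Zarankiewicz bound holds for all `m, n`; for `2 ≤ m ≤ n` there are at least
`(m-1)(m-2) n (n-1) / 12` crossings; for `m = n` this bound is attained. -/
theorem result :
    (∀ (m n : ℕ) (D : TwoPageDrawing m n), D.Separated →
      (m / 2) * ((m - 1) / 2) * ((n / 2) * ((n - 1) / 2)) ≤ D.crossings) ∧
    (∀ (m n : ℕ) (D : TwoPageDrawing m n), D.Separated → 2 ≤ m → m ≤ n →
      (m - 1) * (m - 2) * (n * (n - 1)) ≤ 12 * D.crossings) ∧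
    (∀ n : ℕ, ∃ D : TwoPageDrawing n n, D.Separated ∧
      12 * D.crossings = (n - 1) * (n - 2) * (n * (n - 1))) := by
  refine ⟨?_, ?_, ?_⟩
  · intro m n D hD
    rw [crossings_eq D hD]
    exact zar_sep m n D.page
  · intro m n D hD hm hmn
    rw [crossings_eq D hD]
    exact rect_lower m hm n hmn D.page
  · intro n
    obtain ⟨σ, hσ⟩ := square_attained n
    refine ⟨mkSep n σ, mkSep_sep n σ, ?_⟩
    rw [crossings_eq _ (mkSep_sep n σ)]
    have h : 12 * (monoPairs (mkSep n σ).page).card = n * (n - 1) ^ 2 * (n - 2) := hσ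
    rw [h]
    ring

end Vale.Agent.Results.P040.A0_SeparatedGeneral
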