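import Vale.Agent.P040.FinGrid

namespace Vale.Agent.Results.P040.SeparatedSquare

open Finset Vale.Agent.P040

/-- A two-page (book) drawing of the complete bipartite graph `K_{m,n}`: all vertices lie on the
spine (the real line), at pairwise distinct points; the vertices of each class are labelled in
their order along the spine; every edge is drawn in one of the two pages (half-planes). -/
structure TwoPageDrawing (m n : ℕ) where
  posA : Fin m → ℝ
  posB : Fin n → ℝ
  monoA : StrictMono posA
  monoB : StrictMono posB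
  distinct : ∀ i j, posA i ≠ posB j
  page : Fin m → Fin n → Bool

/-- `z` lies strictly between `x` and `y`. -/
def Inside (x y z : ℝ) : Prop := min x y < z ∧ z < max x y

/-- `z` lies strictly outside the segment with ends `x` and `y`. -/
def Outside (x y z : ℝ) : Prop := z < min x y ∨ max x y < z

/-- The pairs `{x,y}` and `{z,w}` of points of the spine alternate. -/
def Alternate (x y z w : ℝ) : Prop :=
  (Inside x y z ∧ Outside x y w) ∨ (Inside x y w ∧ Outside x y z)

/-- Two edges cross: they lie in the same page and their ends alternate along the spine. -/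
def TwoPageDrawing.Cross {m n : ℕ} (D : TwoPageDrawing m n) (e f : Fin m × Fin n) : Prop :=
  D.page e.1 e.2 = D.page f.1 f.2 ∧
    Alternate (D.posA e.1) (D.posB e.2) (D.posA f.1) (D.posB f.2)

/-- The number of crossings: the number of unordered pairs of crossing edges (each such pair is
listed once, the edge with the smaller end in the first class coming first). -/
noncomputable def TwoPageDrawing.crossings {m n : ℕ} (D : TwoPageDrawing m n) : ℕ :=
  Set.ncard {p : (Fin m × Fin n) × (Fin m × Fin n) | p.1.1 < p.2.1 ∧ D.Cross p.1 p.2}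

/-- The two classes are separated on the spine. -/
def TwoPageDrawing.Separated {m n : ℕ} (D : TwoPageDrawing m n) : Prop :=
  ∀ i j, D.posA i < D.posB j

lemma cross_iff {m n : ℕ} (D : TwoPageDrawing m n) (hD : D.Separated)
    (a c : Fin m) (b d : Fin n) (hac : a < c) :
    D.Cross (a, b) (c, d) ↔ b < d ∧ D.page a b = D.page c d := by
  have h1 : D.posA a < D.posA c := D.monoA hac
  have h2 : D.posA c < D.posB b := hD c b
  have h3 : D.posA a < D.posB b := hD a b
  have h4 : D.posA a < D.posB d := hD a d
  unfold TwoPageDrawing.Cross Alternate Inside Outside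
  simp only [min_eq_left h3.le, max_eq_right h3.le]
  constructor
  · rintro ⟨hp, h⟩
    refine ⟨?_, hp⟩
    rcases h with ⟨_, h | h⟩ | ⟨_, h | h⟩
    · linarith
    · exact D.monoB.lt_iff_lt.mp h
    · linarith
    · linarith
  · rintro ⟨hbd, hp⟩
    exact ⟨hp, Or.inl ⟨⟨h1, h2⟩, Or.inr (D.monoB hbd)⟩⟩

lemma crossings_eq {m n : ℕ} (D : TwoPageDrawing m n) (hD : D.Separated) :
    D.crossings = (monoPairs D.page).card := by
  unfold TwoPageDrawing.crossings
  rw [← Set.ncard_coe_finset]
  congr 1
  ext ⟨⟨a, b⟩, ⟨c, d⟩⟩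
  simp only [Set.mem_ofPred_eq, monoPairs, coe_filter, mem_univ, true_and]
  constructor
  · rintro ⟨h1, h2⟩
    exact ⟨h1, (cross_iff D hD a c b d h1).mp h2⟩
  · rintro ⟨h1, h2⟩
    exact ⟨h1, (cross_iff D hD a c b d h1).mpr h2⟩

/-- a separated drawing with prescribed pages -/
noncomputable def mkSep (n : ℕ) (σ : Fin n → Fin n → Bool) : TwoPageDrawing n n where
  posA := fun i => (i.val : ℝ)
  posB := fun j => (n : ℝ) + j.val
  monoA := fun i j h => by
    show (i.val : ℝ) < j.val
    exact_mod_cast h
  monoB := fun i j h => by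
    have : (i.val : ℝ) < j.val := by exact_mod_cast h
    show (n : ℝ) + i.val < (n : ℝ) + j.val
    linarith
  distinct := fun i j => by
    have h1 : (i.val : ℝ) < n := by exact_mod_cast i.isLt
    have h2 : (0 : ℝ) ≤ j.val := by positivity
    intro h
    linarith
  page := σ

lemma mkSep_sep (n : ℕ) (σ : Fin n → Fin n → Bool) : (mkSep n σ).Separated := by
  intro i j
  have h1 : (i.val : ℝ) < n := by exact_mod_cast i.isLt
  have h2 : (0 : ℝ) ≤ j.val := by positivity
  show (i.val : ℝ) < (n : ℝ) + j.val
  linarith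

lemma zar_le (n : ℕ) : 12 * ((n / 2) * ((n - 1) / 2)) ^ 2 ≤ n * (n - 1) ^ 2 * (n - 2) := by
  rcases Nat.even_or_odd' n with ⟨s, rfl | rfl⟩
  · rcases s with _ | s
    · simp
    have e1 : 2 * (s + 1) / 2 = s + 1 := by omega
    have e2 : (2 * (s + 1) - 1) / 2 = s := by omega
    have e3 : 2 * (s + 1) - 1 = 2 * s + 1 := by omega
    have e4 : 2 * (s + 1) - 2 = 2 * s := by omega
    rw [e1, e2, e3, e4]
    nlinarith [sq_nonneg s, Nat.zero_le s, Nat.zero_le (s * s), Nat.zero_le (s * s * s)]
  · rcases s with _ | s
    · simp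
    have e1 : (2 * (s + 1) + 1) / 2 = s + 1 := by omega
    have e2 : (2 * (s + 1) + 1 - 1) / 2 = s + 1 := by omega
    have e3 : 2 * (s + 1) + 1 - 1 = 2 * s + 2 := by omega
    have e4 : 2 * (s + 1) + 1 - 2 = 2 * s + 1 := by omega
    rw [e1, e2, e3, e4]
    nlinarith [sq_nonneg s, Nat.zero_le s, Nat.zero_le (s * s), Nat.zero_le (s * s * s)]

/-- Every two-page drawing of `K_{n,n}` whose classes are separated on the spine has at least
`n (n-1)^2 (n-2) / 12` crossings, this is attained, and it is at least the Zarankiewicz number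
`(floor(n/2) floor((n-1)/2))^2`. -/
theorem result :
    (∀ (n : ℕ) (D : TwoPageDrawing n n), D.Separated →
      n * (n - 1) ^ 2 * (n - 2) ≤ 12 * D.crossings) ∧
    (∀ n : ℕ, ∃ D : TwoPageDrawing n n, D.Separated ∧
      12 * D.crossings = n * (n - 1) ^ 2 * (n - 2)) ∧
    (∀ (n : ℕ) (D : TwoPageDrawing n n), D.Separated →
      ((n / 2) * ((n - 1) / 2)) ^ 2 ≤ D.crossings) := by
  refine ⟨?_, ?_, ?_⟩
  · intro n D hD
    rw [crossings_eq D hD]
    exact square_lower n D.page
  · intro n
    obtain ⟨σ, hσ⟩ := square_attained n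
    refine ⟨mkSep n σ, mkSep_sep n σ, ?_⟩
    rw [crossings_eq _ (mkSep_sep n σ)]
    exact hσ
  · intro n D hD
    have h1 := square_lower n D.page
    rw [← crossings_eq D hD] at h1
    have h2 := zar_le n
    omega

end Vale.Agent.Results.P040.SeparatedSquare
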